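import Crest.Agent.X212.Nk89.Gwp
import Crest.Agent.X212.Nk89.Gwb
import Crest.Agent.X212.Rf65.Pl
import Crest.Agent.X212.Rf65.Zpk
import Crest.Agent.X212.Inv14.Val
import Crest.Agent.X212.Iz83.Pk
import Crest.Agent.X212.Sym93.Main
import Crest.Agent.X212.Ink3.Main
import Crest.Agent.X212.Map77.IsA

/-!
# Row 212, GL-WALL-PSC (helper14): the leaves at a wall of positive scalar curvature
-/

set_option autoImplicit false
set_option linter.unusedSectionVars false set_option synthInstance.maxHeartbeats 1000000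
noncomputable section
open scoped Manifold ContDiff Topology InnerProductSpace ENNReal NNReal
open MeasureTheory Set Function Filter Real

namespace Crest.Agent.X212.Wal14
open An An.Job M Nd18 Mod61 Gj67 Rf65 Pte3 Nk89 Map77 Cnt93 Eqv71
open Cyf70 (IC)
open Rdc90 (Bs Har bh PS)
open Dec35 (nw)
open Iz83 (bm)
open Inv14 (bo)
open Grp76 (Nice)

/-! ### the cylinder -/

section cyl
variable {E3 : Type} [NormedAddCommGroup E3] [NormedSpace ℝ E3] [FiniteDimensional ℝ E3]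
  [MeasurableSpace E3] [BorelSpace E3]
  {H3 : Type} [TopologicalSpace H3] {I3 : ModelWithCorners ℝ E3 H3} [I3.Boundaryless]
  {Y : Type} [TopologicalSpace Y] [ChartedSpace H3 Y] [IsManifold I3 ∞ Y] [T2Space Y]
  [MeasurableSpace Y] [BorelSpace Y] [SecondCountableTopology Y] [CompactSpace Y]
  {κ : Type} [Fintype κ] {lam : Type} [Fintype lam] (D : YD I3 Y κ lam) (β : YC Y κ lam)
  {V : Type} [Fintype V] [DecidableEq V]

/-- the gauge fixed linearisation at `β` with the drift `γ dt` in the gauge row -/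
def Tz (O' : Set (Y × ℝ)) (γ : ℝ → ℝ) (w : Y × ℝ → Cf (Option κ) (Fin β.m.N)) (x : Y × ℝ) :
    P2 β.m.A (Ef (Option κ) (Fin β.m.N)) :=
  (LZ D.F (bo D β O') β.W).app D.Z w x + γ x.2 • i1 _ _ (fa (w x) none)

/-- the estimate of order `j` against `k` with the weight `ψ`, the drift `γ` and the remainder `R` -/
def ZW (O' : Set (Y × ℝ)) (j k : ℕ) (ψ γ : ℝ → ℝ) (R : (Y × ℝ → Cf (Option κ) (Fin β.m.N)) → ℝ) :
    Prop := ∃ C ≥ 0, ∀ w ∈ Sec (IC I3) (bo D β O').pC, nw D.Z.toPre j (fun x => ψ x.2) w ≤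
      C * (nw D.Z.toPre k (fun x => ψ x.2) (Tz D β O' γ w) + R w)

/-- the estimate on an end -/
def ZE (O' : Set (Y × ℝ)) (j k : ℕ) (δ η : ℝ) : Prop := ∀ s : ℝ, s = 1 ∨ s = -1 →
  ZW D β O' j k (fun t => δ * (s * t)) (fun _ => η + s * δ) 0

/-- the `L²` estimate for the peaked weight -/
def ZP (δ η : ℝ) (ν : V → κ → Y → ℝ) (ξ : Y → β.m.A) : Prop :=
  ZW D β univ 0 0 (fun t => -δ * rho t) (fun t => η - δ * deriv rho t) fun w =>
    ‖fun i => ∫ x, bm x.2 * ⟪kk ν (some i) ξ x, w x⟫_ℝ ∂D.Z.μ‖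

/-- small harmonic deformations are inequivalent -/
def Slc : Prop := ∀ b, PY D b → Bs D β → dz D β = 1 → ∀ η, Har D β η → ∃ ε > 0, ∀ s t : ℝ,
  |s| ≤ ε → |t| ≤ ε → D.Eqv (bh β (s • η) 0) (bh β (t • η) 0) → s • η = t • η

end cyl

variable (κ lam : Type) [Fintype κ] [Fintype lam]

/-- **LEAF ZL** (14) -/
def ZlStmt : Prop := ∀ ρ > 0, ∀ c > 0, ∃ δ₀ > 0, ∀ δ ∈ Ioc 0 δ₀,
  ∀ (Y : Mf 3) [CompactSpace Y.M] (D : YD Y.I Y.M κ lam) (V : Type) [Fintype V] [DecidableEq V]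
    [Subsingleton V] (ν : V → κ → Y.M → ℝ) β ξ, Psc D.F ν ρ → PS D c → Bs D β → dz D β = 1 →
    ParY D β ξ → ξ ≠ 0 → ∃ η₀ > 0, ∀ η ∈ Ioc 0 η₀,
      (∀ O', O' = univ ∨ O' = ∅ → ZE D β O' 0 0 δ η) ∧ ZP D β δ η ν ξ

/-- **LEAF LFT**: elliptic regularity on the cylinder -/
def LftStmt : Prop := ∀ (Y : Mf 3) [CompactSpace Y.M] (D : YD Y.I Y.M κ lam) β O' k δ η b,
  PY D b → Bs D β → O' = univ ∨ O' = ∅ → ZE D β O' 0 0 δ η → ZE D β O' (k + 1) k δ η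

/-- **LEAF SLC** -/
def SlcStmt : Prop := ∀ (Y : Mf 3) [CompactSpace Y.M] [PreconnectedSpace Y.M]
  (D : YD Y.I Y.M κ lam) β, Slc D β

variable {κ lam}

/-! ### the gauge row with a drift -/

section fam
variable {E : Type} [NormedAddCommGroup E] [NormedSpace ℝ E] [FiniteDimensional ℝ E]
  [MeasurableSpace E] [BorelSpace E]
  {HM : Type} [TopologicalSpace HM] {I : ModelWithCorners ℝ E HM} [I.Boundaryless]
  {M : Type} [TopologicalSpace M] [ChartedSpace HM M] [IsManifold I ∞ M]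
  [MeasurableSpace M] [T2Space M] [BorelSpace M] [SecondCountableTopology M]
  {ι : Type} [Fintype ι]
  {T : Type} [NormedAddCommGroup T] [NormedSpace ℝ T] [FiniteDimensional ℝ T]

section row
variable {𝔉 : Fam I M ι lam T} (o : Ref 𝔉) {r : ℕ} (k : ℕ) (dr : ι → M → ℝ)

/-- the drift -/
def drC (x : M) : CL (Cf ι (Fin o.m.N)) o.m.A := ∑ a, dr a x • (o.Pg x ∘L pj _ a ∘L fa)

/-- the drift on Sobolev spaces -/
def drH : 𝔉.F0.H (k + 1) (bd o).pC →L[ℝ] 𝔉.F0.H k o.Pg :=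
  𝔉.F0.mulH k (bd o).pC o.Pg (drC o dr) ∘L 𝔉.F0.incl (k + 1) k _

variable {o}

/-- the Coulomb row with the drift `dr` -/
def sgm (x : Pnt o r) : o.C r k →L[ℝ] 𝔉.F0.H k o.Pg :=
  sig (Fs 𝔉) k x + drH o k dr ∘L sC o r k x.t

/-- the rows at a wall: `sgm` and the phase of `z` -/
def rowQ (x : Pnt o r) : o.C r k →L[ℝ] 𝔉.F0.H k o.Pg × ℝ :=
  (sgm k dr x).prod (innerSL ℝ (Complex.I • x.z) ∘L .fst ℝ _ _ ∘L .snd ℝ _ _ ∘L .snd ℝ _ _)

end row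

/-- upper semi-Fredholm -/
def Usf {X Y : Type} [NormedAddCommGroup X] [NormedSpace ℝ X] [NormedAddCommGroup Y]
    [NormedSpace ℝ Y] (L : X →L[ℝ] Y) : Prop :=
  ∃ (Z : Type) (_ : NormedAddCommGroup Z) (_ : NormedSpace ℝ Z) (K : X →L[ℝ] Z) (C : ℝ),
    IsCompactOperator K ∧ Fred93.Est L K C

variable {𝔉 : Fam I M (Option κ) lam T} {δ : ℝ} (X : Ends 𝔉 δ)

/-- the potential of the drift: linear of slope `η ∓ δ` on the ends -/
structure Dr (t : T) (η : ℝ) (g : M → ℝ) : Prop where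
  pos : 0 < η
  le : η ≤ δ
  sm : Sm I g
  cb : ∀ a, 𝔉.F0.Cb ((𝔉.G t).F.D a g)
  lit : ∃ b, ∀ a, ∃ c, ∀ z ∈ (X.P a).H b, g ((X.P a).K.ψ z) = (η - (X.P a).sg * δ) * z.2 + c

/-- **LEAF USF** -/
def UsfAt : Prop := ∀ (o : Ref 𝔉) (R : ℝ) (r n m k : ℕ) (e : T → PtX M (Option κ) lam r n m)
  (f : o.C r k → o.Y n m k) (y : Pnt o r) η g, 7 ≤ k → X.Lit o R → Aff o (Fs 𝔉) r n m e →
  RepF e f → Dr X y.t η g → (∀ a, X.Act a → ∀ h h0, Bs (X.P a).D ((X.P a).sl o (R + 1) y.t) ∧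
    ZE (X.P a).D ((X.P a).sl o (R + 1) y.t) ((X.P a).O' R) (k + 1) k δ η ∧
    (X.P a).Loc o k δ R e y.t h h0 (eq0 (X.P a).D.B (X.P a).D.G 0 0 0)) →
  Usf ((fderiv ℝ f (y.pt k)).prod (sgm k (fun a => (𝔉.G y.t).F.D a g) y))

/-- **LEAF INJ**: the row with the drift kills the infinitesimal gauge action of `ζ + ξ` -/
def InjAt : Prop := ∀ (o : Ref 𝔉) (r k : ℕ) (y : Pnt o r) η g (ζ : 𝔉.F0.H (k + 2) o.Pg) ξ
  (v : o.C r k), 7 ≤ k → Dr X y.t η g → 𝔉.F0.Cb ξ → (∀ x, o.Pg x (ξ x) = ξ x) →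
  Nice 𝔉.F0.toPre (fun x => exp (g x) • ξ x) → Ker54.In0 k y (𝔉.F0.val _ _ ζ + ξ) 0 v →
  sgm k (fun a => (𝔉.G y.t).F.D a g) y v = 0 → v = 0

end fam

/-! ### the job -/

variable {Wi : Type} {X : Mf 4} {A : Type} [Fintype A]
  [DecidableEq lam] {M : Mark X A κ} {W : World M} {L : ML M lam} {Λ : Lns W L}
  {A' h : Type} [Fintype A'] [DecidableEq A'] [Fintype h] {r n : ℕ}
  {J : Job Wi Λ A' h r n} {σ : Cel A'} {a : A'} {V : Type} [Fintype V] [DecidableEq V]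

/-- the data with the rows of this wall -/
abbrev DV (J : Job Wi Λ A' h r n) (σ : Cel A') (a : A') (V : Type) [Fintype V] : Type :=
  Dat J σ a (V → ℝ) (V → ℝ) ℝ

/-- the drift on the cylinder -/
def drP (κ Y : Type) (η δ : ℝ) (i : Option κ) (z : Y × ℝ) : ℝ :=
  i.elim (η - δ * deriv rho z.2) fun _ => 0

variable (d : DV J σ a V) (δ η : ℝ) (ν : V → κ → d.Y → ℝ) (ξ : d.Y → HS (Fin d.N))

/-- the potential of the drift on the face -/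
def gS (z : (W.Z (J.cf a)).M) : ℝ := (η - δ) * Gl67.ka ((d.KS false).τ z - (d.R0 - 1)) -
  (η + δ) * Gl67.ka (-(d.KS true).τ z - (d.R0 - 1))

/-- the moving limit -/
def bV (y : d.Y) : CL (V → ℝ) (Fm (Option κ) (HS (Fin d.N))) :=
  ∑ i, (ContinuousLinearMap.proj i).smulRight (fa (kk ν (some i) ξ (y, 0)))

/-- the data with the rows (`d₀` : the drift of the chart) -/
def rows (bS : (W.Z (J.cf a)).M → CL (V → ℝ) (Fm (Option κ) (HS (Fin d.N))))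
    (d₀ : Option κ → (W.Z (J.cf a)).M → ℝ) : DV J σ a V :=
  { d with
    bS := bS
    dS := fun i z => d₀ i z + (J.G _ d.y.s).F.D i (gS d δ η) z
    lo := 0
    lz := innerSL ℝ (Complex.I • d.y.x.z)
    bZ := bV d ν ξ
    dZ := drP κ d.Y η δ
    bp := fun z => bm z.2
    mo := fun z => .pi fun i => bm z.2 • innerSL ℝ (kk ν (some i) ξ z) }

/-- a normalised face object at a flat limit with the parallel data `ν`, `ξ` -/
structure Pw (q₀ : Wi →₀ ℝ) : Prop where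
  ok : d.OK q₀ δ
  nul : Nul d
  R6 : 6 ≤ d.R0
  nil : Ink3.Nil (J.xs d.x).N ∧ (J.xs d.x).ty = 0
  b0 : IsEmpty V ∨ ∀ x, Ink3.Nil (J.xs x).N ∧ (J.xs x).ty = 0
  sub : Subsingleton V
  psc : ∃ ρ, Psc d.D.F ν ρ
  ps : ∃ c > 0, PS d.D c
  bs : Bs d.D (d.β 0)
  dz : dz d.D (d.β 0) = 1
  par : ParY d.D (d.β 0) ξ
  ne : ξ ≠ 0

variable {d δ η ν ξ} {c : M.Cl}

/-- a regular chart of the whole face of the wall `x` -/
structure Cx (σ : Cel A') (q : Wi →₀ ℝ) (y : J.Obc c) (x : A) {p : Prt A A' h} {b : Bp J c}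
    (E : EC b p V δ) (x' : Pnt E.o r) (ψ : E.K) : Prop where
  cs : CS σ E
  ph : PH J σ c p E.μ
  sp : SplAt J c δ
  sol : Sol σ q y
  se : SolE p E.μ σ q y
  ch : E.Ch δ σ E.μ y x' ψ
  reg : E.Reg q x' ψ
  P : p.P = {hp x true, hp x false}
  uP : W.un c p.P = univ
  uP' : W.un c p.P' = univ
  H : p.H = univ
  hV : ∀ a, σ a = none → (∀ x, J.hd a = some x → x ∉ c.1) → a ∈ p.V
  cw : cylW c = {x}
  tf : y.TF (hp x true)
  r0 : r ≠ 0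
  dz : ∀ i : Ed c, dz (J.xs i.1).D (y.β i.1 i.2) = 1
  stb : stb y {hp x true} = 1
  dm : dm δ y p (Fintype.card V) = 2
  mu : ∀ v i, E.μ i = some v

/-- the chart represents the face object, and the moving limits agree -/
def RepM (d : DV J σ a V) {p : Prt A A' h} {b : Bp J (J.cf a)} (E : EC b p V δ) (x : Pnt E.o r)
    (ψ : E.K) (bS : (W.Z (J.cf a)).M → CL (V → ℝ) (Fm (Option κ) (HS (Fin d.N)))) : Prop :=
  ∃ (w : (W.Z (J.cf a)).M → CL d.y.x.m.V E.o.m.V) (ζ : Circle),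
    EqOn (J.B _) (J.G _ (b.θ p V x.t)).F univ d.y.x x.cfg w ζ ∧
    (∀ i : p.H, (J.cut _ i).Eqv (J.cut _ i) (J.B _) (J.B _) w (d.y.ψ i) (ψ i)) ∧
    ∀ t i, Nice (b.F p V δ).F0.toPre fun z => cj (w z) (bS z t.2 i) - E.o.b t z i

variable (J)

/-- **LEAF ROW** -/
def RowL : Prop := ∀ σ a (V : Type) [Fintype V] [DecidableEq V] (d : DV J σ a V) q₀ δ ν ξ,
  Pw d δ ν ξ q₀ → ∃ bS, d.FS.F0.Cb bS ∧ d.Lit bS (fun z => bV d ν ξ z.1) ∧ ∀ η d₀,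
    (∀ i, d.FS.F0.Cb (d₀ i) ∧ d.Lit (d₀ i) (drZ κ d.Y (-2 * δ) i)) →
    (rows d δ η ν ξ bS d₀).OK q₀ δ

/-- **LEAF ZN** -/
def ZnL : Prop := ∀ σ a (V : Type) [Fintype V] [DecidableEq V] (d : DV J σ a V) q₀ δ η ν ξ bS d₀,
  Pw d δ ν ξ q₀ → (rows d δ η ν ξ bS d₀).OK q₀ δ → ZP d.D (d.β 0) δ η ν ξ →
  (rows d δ η ν ξ bS d₀).IsoZ q₀ δ 8

/-- **LEAF MV** -/
def MvL : Prop := SlcStmt κ lam → ∀ σ a (V : Type) [Fintype V] [DecidableEq V] (d : DV J σ a V) q₀ δ ν ξ₀ y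
  (p : Prt A A' h) (b : Bp J (J.cf a)) (E : EC b p V δ) x ψ, Pw d δ ν ξ₀ q₀ → Job.Iso d.y y →
  Cx σ q₀ y d.x E x ψ → b.θ p V x.t = d.y.s → ∃ ξ, ParY d.D (d.β 0) ξ ∧ ξ ≠ 0 ∧
    ∀ bS, d.FS.F0.Cb bS → d.Lit bS (fun z => bV d ν ξ z.1) → RepM d E x ψ bS

/-- **LEAF LOW** (KER and the assembly) -/
def LowL : Prop := ∀ σ (c : M.Cl) (V : Type) [Fintype V] [DecidableEq V] q δ (y : J.Obc c) x
  (p : Prt A A' h) (b : Bp J c) (E : EC b p V δ) x' ψ (H : Cx σ q y x E x' ψ) η g,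
  UsfAt H.cs.ee → InjAt H.cs.ee → Dr H.cs.ee x'.t η g →
  (∀ i, ZE (J.xs i.1).D ((en E i).sl E.o (E.R + 1) x'.t) ((en E i).O' E.R) 9 8 δ η) →
  Is.LowB 8 (EC.tot b p V δ q) (Sym93.rw q) x' ψ
    (rowQ 8 (fun i => (J.G c (b.θ p V x'.t)).F.D i g) x')

/-- **LEAF TRS** -/
def TrsL : Prop := ∀ σ a (V : Type) [Fintype V] [DecidableEq V] (d : DV J σ a V) q₀ δ y
  (p : Prt A A' h) (b : Bp J (J.cf a)) (E : EC b p V δ) x ψ (dr : Option κ → _ → ℝ),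
  d.OK q₀ δ → d.Oke q₀ → d.LipS q₀ δ 8 → Job.Iso d.y y → Cx σ q₀ y d.x E x ψ →
  b.θ p V x.t = d.y.s → Prm93.Cmp (d.S.Fw δ).toPre (b.F p V δ).F0.toPre →
  (∀ i, d.FS.F0.Cb (dr i)) → (d.dS = fun i z => dSY b p V δ x.t i z + dr i z) → d.lo = 0 →
  d.lz = innerSL ℝ (Complex.I • d.y.x.z) → RepM d E x ψ d.bS →
  Is.LowB 8 (EC.tot b p V δ q₀) (Sym93.rw q₀) x ψ (rowQ 8 dr x) → d.IsoS q₀ δ 8

end Crest.Agent.X212.Wal14
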