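import Crest.Agent.X212.Wal14.Defs
import Crest.Agent.X212.Mp86.St
import Crest.Agent.X212.Loc8.Ws
import Crest.Agent.X212.Map77.Wc

/-!
# Row 212, GL-WALL-PSC (helper14): the chart of the face and the potential of the drift
-/

set_option autoImplicit false
set_option linter.unusedSectionVars false
noncomputable section
open scoped Manifold ContDiff Topology
open Set Function Filter

namespace Crest.Agent.X212.Wal14
open An An.Job M Nd18 Mod61 Gj67 Rf65 Pte3 Nk89 Mp86.St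
open Rdc90 (Bs)

variable {Wi : Type} {X : Mf 4} {A κ lam : Type} [Fintype A] [Fintype κ] [Fintype lam]
  [DecidableEq lam] {M : Mark X A κ} {W : World M} {L : ML M lam} {Λ : Lns W L}
  {A' h : Type} [Fintype A'] [DecidableEq A'] [Fintype h] {r n : ℕ}
  {J : Job Wi Λ A' h r n} {σ : Cel A'} {a : A'} {δ : ℝ} {q : Wi →₀ ℝ}

section cx
variable {sh : Set A'} {n₀ : ℤ} {y : J.Obc (J.cf a)} {x : A}

theorem ed_eq {c : M.Cl} (e : c.1 = {x}) (i : Ed c) : i.1.1 = x := e.le i.1.2.1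

theorem ed_mem {c : M.Cl} (e : c.1 = {x}) (i : Ed c) : i ∈ EdP c {hp x true, hp x false} :=
  ⟨hp x i.2, by cases i.2 <;> simp, by simp [hp, ed_eq e i]⟩

theorem cx_of (H : AnH J (J.cf a) δ sh σ) (hs : ∀ a', J.hd a' = none → a' ∈ sh) (fr : σ a = none)
    (hy : Sol σ q y) (fa : FA J (J.cf a) σ n₀ y x) (unc : J.unc (J.cf a) = univ)
    (h1 : dz (J.xs x).D (y.β x true) = 1) (h2 : dmy δ y (pW J (J.cf a) sh σ x) = 2)
    {b : Bp J (J.cf a)} {E : EC b (pW J (J.cf a) sh σ x) _ δ} {x' ψ}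
    (g : E.Gd σ (muF J _ {hp x true, hp x false}) q y x' ψ) (rg : E.Reg q x' ψ) :
    Cx σ q y x E x' ψ ∧ (∀ i, i ∈ zw J (J.cf a) ↔ i ∈ cz y) := by
  have e := fa.1.2.1
  have hx : x ∈ cylW (J.cf a) := ⟨e.ge rfl, fa.1.2.2.1⟩
  have hd : J.hd a = some x := hx.1
  have w : Wl J (J.cf a) := ⟨H.ok, H.pj, H.wl⟩
  have jz0 : jz y = cylW (J.cf a) := sep_eq_self_iff_mem_true.2 fa.1.2.2.2.1.2
  have d1 : ∀ i : Ed (J.cf a), dz (J.xs i.1).D (y.β i.1 i.2) = 1 := fun ⟨⟨z, hz⟩, s⟩ => by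
    obtain rfl : z = x := e.le hz.1
    cases s
    exacts [bk hy z (jz0.ge hz) ▸ h1, h1]
  have zz : ∀ i, i ∈ zw J (J.cf a) ↔ i ∈ cz y := fun i => by
    obtain ⟨m, -, h7, h8⟩ := w.num i.1.2
    refine ⟨fun k => .inl (k _ (h7 _ (hy.crit _ i.1.2 i.2))), fun k β hβ => ?_⟩
    have h9 := (h8 _ (h7 _ (hy.crit _ i.1.2 i.2))).1
    rw [k.resolve_right fun e' => absurd ((d1 i).symm.trans e') (by decide), d1, mul_one] at h9
    rw [(h8 β hβ).1, ← h9, zero_mul]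
  have un : W.un (J.cf a) {hp x true, hp x false} = univ := eq_univ_of_forall fun z =>
    let ⟨_, h1, h2⟩ := Cyl58.exists_pc W.toCaps z
    mem_biUnion (eq_hp (e ▸ h1)) h2
  have yH : y.H = univ := (hy.H_eq fa.1.2.2.2.1.1).trans unc
  have pok : J.POK σ _ (pW J (J.cf a) sh σ x) := H.loc.pok σ H.mem _ _ _ _
    (fun _ k => k.elim (· ▸ hp_mem e true) (· ▸ hp_mem e false)) subset_rfl
  have ph : PH J σ _ (pW J (J.cf a) sh σ x) (muF J _ {hp x true, hp x false}) :=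
    ⟨H.ok, H.mem, pok, H.pj, muOK _⟩
  have se : SolE (pW J (J.cf a) sh σ x) (muF J _ {hp x true, hp x false}) σ q y :=
    solE0 (p := pW J (J.cf a) sh σ x) w ⟨hy.cell, hy.inf, hy.sol.toAdm,
      fun _ hz => (hz (un.ge trivial)).elim, fun z _ => hy.sol.D z, fun z _ => hy.sol.C z, hy.sol.S,
      fun i _ => hy.cut i (yH.ge trivial), fun a b ha _ => hy.lim a b ha,
      fun a ha b _ => hy.crit a ha b, hy.int.integrableOn⟩
      (fun π hπ => .inl ⟨x, hx, by rcases hπ with rfl | rfl <;> simp [hp]⟩) (fun i _ => zz i) jz0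
      (bk hy)
  have hμ := g.ch.hμ
  refine ⟨⟨⟨⟨H.ok, H.mem, pok⟩, g.ch.ok, g.ch.ov, g.sm⟩, hμ ▸ ph, H.spl, hy, hμ ▸ se, hμ ▸ g.ch, rg,
    rfl, un, un, eq_univ_of_forall fun i => ⟨trivial, fun z hz => ?_⟩, fun a' f k =>
      Loc8.mem_V H.ok H.mem hs hd fr f fun e' => k x (e' ▸ hd) hx.1,
    (sep_subset _ _).trans e.le |>.antisymm (singleton_subset_iff.2 hx), fa.1.2.2.2.2, H.r0, d1,
    ?_, ?_, fun v i => ?_⟩, zz⟩
  · have := M.con
    obtain ⟨π, k1, k2⟩ := Sys.exists_piece (J.cf a).2 (disjoint_left.1 (unc.ge (mem_univ i)) hz)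
    exact mem_biUnion (eq_hp (e ▸ k1)) k2
  · have : {i : Ed (J.cf a) | ∃ π ∈ ({hp x true} : Set (Reg A)), π i.1 = some i.2} =
        {(⟨x, hx⟩, true)} := Set.ext fun i => ⟨fun ⟨_, (k : _ = _), f⟩ => by
          obtain ⟨k1, k2⟩ := hp_some.1 (k ▸ f)
          exact Prod.ext (Subtype.ext k1) k2, fun (k : _ = _) => ⟨_, rfl, by simp [k, hp]⟩⟩
    rw [stb, this, finsum_mem_singleton]
    exact h1
  · have e : UU (pW J (J.cf a) sh σ x).P (cz y) (jz y) ≃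
        UU {hp x true, hp x false} (zw J (J.cf a)) (cylW _) := Equiv.subtypeEquivRight fun u =>
      exists_congr fun i => and_congr_right fun _ => by rw [← zz i, jz0]
    rwa [dmy, Fintype.card_congr e] at h2
  · obtain ⟨_, j, j1, j2, rfl⟩ := v
    have k : ∀ i : Ed (J.cf a), i.1 = ⟨x, hx⟩ := fun i => Subtype.ext (ed_eq e i)
    have ky0 : ∀ i : Ed (J.cf a), ky (cylW _) i = (⟨x, hx⟩, false) := fun i => by
      rw [ky, if_pos i.1.2, k]
    have : i ∉ zw J (J.cf a) := by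
      obtain ⟨i1, i2⟩ := i
      obtain ⟨j1', j2'⟩ := j
      obtain rfl := k (i1, i2)
      obtain rfl := k (j1', j2')
      exact j2
    rw [hμ, muF, mu, dif_pos ⟨ed_mem e i, this⟩]
    exact congrArg _ (Subtype.ext ((ky0 i).trans (ky0 j).symm))

end cx

section dr
variable {V : Type} [Fintype V] [DecidableEq V] {d : DV J σ a V} {η : ℝ}

theorem sm_gS : Sm (W.Z (J.cf a)).I (gS d δ η) :=
  (contMDiff_const.mul (Gl67.cd_ka.contMDiff.comp ((d.KS false).sm_τ.sub contMDiff_const))).sub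
    (contMDiff_const.mul (Gl67.cd_ka.contMDiff.comp ((d.KS true).sm_τ.neg.sub contMDiff_const)))

theorem gS_end (H : d.OK q δ) (s : Bool) {z : d.Y × ℝ} (hz : d.R0 < -pm s * z.2) :
    gS d δ η ((d.KS s).ψ z) =
      (η - -pm s * δ) * z.2 + (η - -pm s * δ) * (-pm s * (Gl67.ka 1 - d.R0)) := by
  have R := H.R1
  have k := ((d.KS s).mem_src (z := z)).2 ((Gb50.S_J H s).2 (by linarith))
  have k1 := (d.KS s).ψ.map_source k
  have e1 := (Map77.Wc.st1 H (Map77.Wc.x1 d, s)).τ_eq ((d.KS s).ψ z)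
  have e2 := (Map77.Wc.st1 H (Map77.Wc.x1 d, !s)).τ_zero (x := (d.KS s).ψ z) fun f => by
    have a1 := ((Gb50.S_tgt H _).1 k1).2
    have a2 := ((Gb50.S_tgt H (!s)).1 f).2
    cases s <;> simp [pm] at a1 a2 <;> linarith
  change _ * (d.KS s).τ _ = _ * (d.KS s).tm _ * Real.smoothTransition (2 * (_ * (d.KS s).tm _) - 1)
    at e1
  change _ * (d.KS (!s)).τ _ = 0 at e2
  rw [(d.KS s).tm_ψ _ k] at e1
  have l := fun u : ℝ => Gl67.ka_lin (s := u) le_rfl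
  have z0 := Gl67.ka_zero (s := 0 - (d.R0 - 1)) (by linarith)
  cases s <;> simp only [End.sg, pm, Bool.not_false, Bool.not_true, cond_true, cond_false,
    Bool.false_eq_true, if_false, if_true, neg_neg, one_mul, neg_mul, neg_eq_zero] at e1 e2 hz ⊢ <;>
    rw [Real.smoothTransition.one_of_one_le (by linarith), mul_one] at e1
  · rw [gS, e1, e2, neg_zero, z0, eq_add_of_sub_eq (l _ (by linarith))]; ring
  · rw [gS, e1, e2, z0, eq_add_of_sub_eq (l _ (by linarith))]; ring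

theorem dr_gS (H : d.OK q δ) {p : Prt A A' h} {b : Bp J (J.cf a)} {E : EC b p V δ} (C : CS σ E)
    {t : Tq p V} (h0 : 0 < η) (h1 : η ≤ δ)
    (cb : ∀ i, (b.F p V δ).F0.Cb ((J.G _ (b.θ p V t)).F.D i (gS d δ η))) : Dr C.ee t η (gS d δ η) := by
  refine ⟨h0, h1, sm_gS, cb, d.R0, fun ⟨z, s⟩ => ?_⟩
  obtain rfl : z = Map77.Wc.x1 d := Subtype.ext ((Gb50.mem_cf H).1 z.2.1)
  have sg : (C.ee.P (Map77.Wc.x1 d, s)).sg = -pm s := by cases s <;> simp [End.sg, pm] <;> rfl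
  refine ⟨(η - -pm s * δ) * (-pm s * (Gl67.ka 1 - d.R0)), fun z hz => ?_⟩
  have hz' : d.R0 < -pm s * z.2 := sg ▸ hz
  have k := ((d.KS s).mem_src (z := z)).2 ((Gb50.S_J H s).2 (by linarith [H.R1]))
  rw [sg]
  exact (congrArg _ ((H.ok.end_eq (d.hb s) ⟨(d.hb s).1, b.br, b.O, (d.hb s).2.2.2⟩).ψ k)).trans
    (gS_end H s hz')

end dr

end Crest.Agent.X212.Wal14
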